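import Vale.Agent.P078.Expected.Corner
import Vale.Agent.P078.General.Reduction
import Vale.Agent.P078.General.Main

/-!
So-paving of every maximal abelian algebra of every von Neumann algebra from paving at a given rate
inside inclusions with expectation.
-/

noncomputable section

open Vale.Agent.P078.Finite (IsMasaIn SoPavableIn)

namespace Vale.Agent.P078.Expected

universe u

/-- The constant of the general so-paving bound of exponent `k`. -/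
def allRate (C0 : ℝ) (k : ℕ) : ℝ := max C0 0 * 2 ^ k + 4

theorem allRate_pos (C0 : ℝ) (k : ℕ) : 0 < allRate C0 k := by unfold allRate; positivity

/-- A rate `C₁ * r ^ (-1 / k)` is at most `ε` from `C₁ ^ k / ε ^ k` on. -/
theorem rate_le_of_root {rate : ℕ → ℝ} {C1 : ℝ} (hC1 : 0 ≤ C1) {k : ℕ} (hk : 1 ≤ k)
    (h : ∀ r : ℕ, 1 ≤ r → rate r ≤ C1 / (r : ℝ) ^ ((k : ℝ)⁻¹)) (ε : ℝ) (hε : 0 < ε) (r : ℕ)
    (hr : 1 ≤ r) (hC : C1 ^ k / ε ^ k ≤ r) : rate r ≤ ε := by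
  have h0 : (0 : ℝ) < r := by exact_mod_cast hr
  refine (h r hr).trans ?_
  rw [div_le_iff₀ (Real.rpow_pos_of_pos h0 _)]
  refine (pow_le_pow_iff_left₀ hC1 (by positivity) (by omega : k ≠ 0)).1 ?_
  rw [mul_pow, Real.rpow_inv_natCast_pow h0.le (by omega)]
  rw [div_le_iff₀ (by positivity)] at hC
  linarith

/-- A rate `C₁ / √r` is at most `ε` from `C₁ ^ 2 / ε ^ 2` on. -/
theorem rate_le_of_sqrt {rate : ℕ → ℝ} {C1 : ℝ} (hC1 : 0 ≤ C1)
    (h : ∀ r : ℕ, 1 ≤ r → rate r ≤ C1 / √(r : ℝ)) (ε : ℝ) (hε : 0 < ε) (r : ℕ)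
    (hr : 1 ≤ r) (hC : C1 ^ 2 / ε ^ 2 ≤ r) : rate r ≤ ε :=
  rate_le_of_root hC1 one_le_two (fun r hr => by
    refine (h r hr).trans_eq ?_
    rw [Real.sqrt_eq_rpow]
    norm_num) ε hε r hr hC

theorem split_count_pow {C0 ε : ℝ} {k : ℕ} (hk : 1 ≤ k) (hε : 0 < ε) (hε1 : ε < 1) {r : ℕ}
    (hr : allRate C0 k / ε ^ k ≤ r) :
    ∃ r0 r1 : ℕ, r = r0 + r1 ∧ 1 ≤ r0 ∧ C0 / (ε / 2) ^ k ≤ r0 ∧ 2 / ε < r1 := by
  have hεk : 0 < ε ^ k := pow_pos hε k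
  have hεle : ε ^ k ≤ ε := by
    simpa using pow_le_pow_of_le_one hε.le hε1.le hk
  have h2 : (⌊2 / ε⌋₊ : ℝ) + 1 ≤ 3 / ε ^ k := by
    have h0 : (⌊2 / ε⌋₊ : ℝ) ≤ 2 / ε := Nat.floor_le (by positivity)
    refine (add_le_add h0 le_rfl).trans ?_
    rw [div_add_one hε.ne', div_le_div_iff₀ hε hεk]
    nlinarith
  set r1 := ⌊2 / ε⌋₊ + 1 with hr1def
  have hr1 : (r1 : ℝ) ≤ 3 / ε ^ k := by push_cast [hr1def]; exact h2
  have e : allRate C0 k / ε ^ k = (max C0 0 * 2 ^ k + 1) / ε ^ k + 3 / ε ^ k := by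
    rw [allRate, ← add_div]
    congr 1
    ring
  have hpos : (0 : ℝ) < (max C0 0 * 2 ^ k + 1) / ε ^ k := by positivity
  have hle : r1 ≤ r := by exact_mod_cast (by linarith : (r1 : ℝ) ≤ r)
  have h3 : (max C0 0 * 2 ^ k + 1) / ε ^ k ≤ ((r - r1 : ℕ) : ℝ) := by
    rw [Nat.cast_sub hle]
    linarith
  refine ⟨r - r1, r1, (Nat.sub_add_cancel hle).symm, ?_, ?_, ?_⟩
  · exact_mod_cast (hpos.trans_le h3 : (0 : ℝ) < ((r - r1 : ℕ) : ℝ))
  · refine le_trans ?_ h3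
    rw [div_pow, div_div_eq_mul_div]
    refine div_le_div_of_nonneg_right ?_ hεk.le
    nlinarith [le_max_left C0 0, pow_pos (two_pos : (0 : ℝ) < 2) k]
  · push_cast [hr1def]
    exact Nat.lt_floor_add_one _

/-- Every maximal abelian algebra of every von Neumann algebra so-paves: paving at a rate which is
at most `ε` from `C₀ / ε ^ k` on gives so-paving with `allRate C₀ k / ε ^ k` pieces. -/
theorem soPavableIn_all {rate : ℕ → ℝ} (h : Paving.{u} rate) {k : ℕ} (hk : 1 ≤ k) {C0 : ℝ}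
    (hrate : ∀ ε : ℝ, 0 < ε → ∀ r : ℕ, 1 ≤ r → C0 / ε ^ k ≤ r → rate r ≤ ε)
    {H : Type u} [NormedAddCommGroup H] [InnerProductSpace ℂ H] [CompleteSpace H]
    {M : VonNeumannAlgebra H} {A : StarSubalgebra ℂ (H →L[ℂ] H)} (hA : IsMasaIn M A)
    {ε : ℝ} (hε : 0 < ε) {r : ℕ} (hr : allRate C0 k / ε ^ k ≤ r)
    {x : H →L[ℂ] H} (hxM : x ∈ M) (hx : IsSelfAdjoint x) : SoPavableIn M A ε r x := by
  have hr0 : 1 ≤ r := by
    exact_mod_cast ((div_pos (allRate_pos C0 k) (pow_pos hε k)).trans_le hr : (0 : ℝ) < r)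
  rcases le_or_gt 1 ε with hε1 | hε1
  · exact General.soPavableIn_of_one_le hε1 hr0 x
  obtain ⟨r0, r1, rfl, h0, hC, h1⟩ := split_count_pow hk hε hε1 hr
  refine General.soPavableIn_of_stateCorners hA hε h0 h1 hxM hx fun D =>
    General.pavableOn_of_stateCorner h D h0 ?_ hxM hx
  linarith [hrate (ε / 2) (by positivity) r0 h0 hC]

/-- The constant form of `soPavableIn_all`. -/
theorem exists_const_soPaving {rate : ℕ → ℝ} (h : Paving.{u} rate) {k : ℕ} (hk : 1 ≤ k) {C0 : ℝ}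
    (hrate : ∀ ε : ℝ, 0 < ε → ∀ r : ℕ, 1 ≤ r → C0 / ε ^ k ≤ r → rate r ≤ ε) :
    ∃ C : ℝ, 0 < C ∧
      ∀ (H : Type u) [NormedAddCommGroup H] [InnerProductSpace ℂ H] [CompleteSpace H]
        (M : VonNeumannAlgebra H) (A : StarSubalgebra ℂ (H →L[ℂ] H)),
        IsMasaIn M A → ∀ ε : ℝ, 0 < ε → ∀ r : ℕ, C / ε ^ k ≤ r →
          ∀ x ∈ M, IsSelfAdjoint x → SoPavableIn M A ε r x :=
  ⟨allRate C0 k, allRate_pos C0 k, fun _ _ _ _ _ _ hA _ hε _ hr _ hxM hx =>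
    soPavableIn_all h hk hrate hA hε hr hxM hx⟩

end Vale.Agent.P078.Expected
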