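import Mathlib

/-!
An inclusion with expectation: an algebra of operators `M` with a separating vector centralised by
a maximal abelian subalgebra `A`, the latter identified with the continuous functions on its
spectrum.
-/

noncomputable section

open scoped InnerProductSpace
open WeakDual

namespace Vale.Agent.P078.Expected

universe u

variable {K : Type u} [NormedAddCommGroup K] [InnerProductSpace ℂ K] [CompleteSpace K]

/-- An inclusion `A ⊆ M` on `K` with a separating vector state centralised by `A`. -/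
structure Ctx (K : Type u) [NormedAddCommGroup K] [InnerProductSpace ℂ K] [CompleteSpace K] where
  M : StarSubalgebra ℂ (K →L[ℂ] K)
  A : StarSubalgebra ℂ (K →L[ℂ] K)
  Ω : K
  hM : ∃ S : Set (K →L[ℂ] K), ∀ T, T ∈ M ↔ ∀ s ∈ S, T * s = s * T
  hAM : A ≤ M
  hA : ∀ T ∈ M, (T ∈ A ↔ ∀ a ∈ A, T * a = a * T)
  hcen : ∀ a ∈ A, ∀ x ∈ M, ⟪Ω, (a * x) Ω⟫_ℂ = ⟪Ω, (x * a) Ω⟫_ℂ
  hsep : ∀ x ∈ M, x Ω = 0 → x = 0

namespace Ctx

variable (C : Ctx K)

theorem A_comm {a b : K →L[ℂ] K} (ha : a ∈ C.A) (hb : b ∈ C.A) : a * b = b * a :=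
  (C.hA a (C.hAM ha)).1 ha b hb

theorem mem_M_of_comm {T : K →L[ℂ] K}
    (h : ∀ s : K →L[ℂ] K, (∀ x ∈ C.M, x * s = s * x) → T * s = s * T) : T ∈ C.M := by
  obtain ⟨S, hS⟩ := C.hM
  exact (hS T).2 fun s hs => h s fun x hx => (hS x).1 hx s hs

theorem isClosed_commutant (s : K →L[ℂ] K) : IsClosed {T : K →L[ℂ] K | T * s = s * T} :=
  isClosed_eq (by fun_prop) (by fun_prop)

theorem isClosed_M : IsClosed (C.M : Set (K →L[ℂ] K)) := by
  obtain ⟨S, hS⟩ := C.hM
  have : (C.M : Set (K →L[ℂ] K)) = ⋂ s ∈ S, {T | T * s = s * T} := by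
    ext T; simp [hS]
  rw [this]
  exact isClosed_biInter fun s _ => isClosed_commutant s

theorem isClosed_A : IsClosed (C.A : Set (K →L[ℂ] K)) := by
  have : (C.A : Set (K →L[ℂ] K)) = (C.M : Set _) ∩ ⋂ a ∈ C.A, {T | T * a = a * T} := by
    ext T
    simp only [Set.mem_inter_iff, Set.mem_iInter, Set.mem_ofPred_eq, SetLike.mem_coe]
    exact ⟨fun h => ⟨C.hAM h, (C.hA T (C.hAM h)).1 h⟩, fun h => (C.hA T h.1).2 h.2⟩
  rw [this]
  exact C.isClosed_M.inter (isClosed_biInter fun a _ => isClosed_commutant a)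

instance instClosedA : IsClosed (C.A : Set (K →L[ℂ] K)) := C.isClosed_A

instance instCommA : CommCStarAlgebra C.A :=
  { StarSubalgebra.cstarAlgebra C.A with
    mul_comm := fun x y => Subtype.ext (C.A_comm x.2 y.2) }

/-- The spectrum of `A`. -/
def Spec : Type u := characterSpace ℂ C.A

instance instTopSpec : TopologicalSpace C.Spec :=
  inferInstanceAs (TopologicalSpace (characterSpace ℂ C.A))

instance instCompactSpec : CompactSpace C.Spec :=
  inferInstanceAs (CompactSpace (characterSpace ℂ C.A))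

instance instT2Spec : T2Space C.Spec :=
  inferInstanceAs (T2Space (characterSpace ℂ C.A))

/-- The Gelfand transform of `A`. -/
def gel : C.A ≃⋆ₐ[ℂ] C(C.Spec, ℂ) := gelfandStarTransform C.A

/-- The element of `A` with a given complex symbol. -/
def opC (f : C(C.Spec, ℂ)) : K →L[ℂ] K :=
  (C.gel.symm f : C.A)

/-- The symbol of an element of `A` (zero off `A`). -/
def fn (T : K →L[ℂ] K) : C(C.Spec, ℂ) :=
  open Classical in if h : T ∈ C.A then C.gel ⟨T, h⟩ else 0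

theorem opC_mem (f : C(C.Spec, ℂ)) : C.opC f ∈ C.A := SetLike.coe_mem _

@[simp] theorem fn_opC (f : C(C.Spec, ℂ)) : C.fn (C.opC f) = f := by
  rw [fn, dif_pos (C.opC_mem f)]
  exact StarAlgEquiv.apply_symm_apply _ f

theorem opC_fn {T : K →L[ℂ] K} (h : T ∈ C.A) : C.opC (C.fn T) = T := by
  rw [fn, dif_pos h, opC, StarAlgEquiv.symm_apply_apply]

theorem opC_add (f g : C(C.Spec, ℂ)) : C.opC (f + g) = C.opC f + C.opC g := by
  simp [opC, map_add]

theorem opC_mul (f g : C(C.Spec, ℂ)) : C.opC (f * g) = C.opC f * C.opC g := by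
  simp [opC, map_mul]

theorem opC_one : C.opC 1 = 1 := by simp [opC]

theorem opC_zero : C.opC 0 = 0 := by simp [opC]

theorem opC_star (f : C(C.Spec, ℂ)) : C.opC (star f) = star (C.opC f) := by
  simp [opC, map_star]

theorem opC_smul (c : ℂ) (f : C(C.Spec, ℂ)) : C.opC (c • f) = c • C.opC f := by
  simp [opC, map_smul]

theorem fn_add {S T : K →L[ℂ] K} (hS : S ∈ C.A) (hT : T ∈ C.A) :
    C.fn (S + T) = C.fn S + C.fn T := by
  conv_lhs => rw [← C.opC_fn hS, ← C.opC_fn hT, ← C.opC_add, C.fn_opC]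

theorem fn_mul {S T : K →L[ℂ] K} (hS : S ∈ C.A) (hT : T ∈ C.A) :
    C.fn (S * T) = C.fn S * C.fn T := by
  conv_lhs => rw [← C.opC_fn hS, ← C.opC_fn hT, ← C.opC_mul, C.fn_opC]

theorem fn_star {T : K →L[ℂ] K} (hT : T ∈ C.A) : C.fn (star T) = star (C.fn T) := by
  conv_lhs => rw [← C.opC_fn hT, ← C.opC_star, C.fn_opC]

theorem fn_smul (c : ℂ) {T : K →L[ℂ] K} (hT : T ∈ C.A) : C.fn (c • T) = c • C.fn T := by
  conv_lhs => rw [← C.opC_fn hT, ← C.opC_smul, C.fn_opC]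

theorem norm_gel (a : C.A) : ‖C.gel a‖ = ‖a‖ :=
  (gelfandTransform_isometry (↥C.A)).norm_map_of_map_zero (map_zero _) a

theorem norm_opC (f : C(C.Spec, ℂ)) : ‖C.opC f‖ = ‖f‖ := by
  have h := C.norm_gel (C.gel.symm f)
  rw [StarAlgEquiv.apply_symm_apply] at h
  exact h.symm

/-- Real symbols among complex ones. -/
def cR : C(C.Spec, ℝ) →ₐ[ℝ] C(C.Spec, ℂ) :=
  (Complex.ofRealAm).compLeftContinuous ℝ Complex.continuous_ofReal

theorem cR_apply (f : C(C.Spec, ℝ)) (χ : C.Spec) : C.cR f χ = (f χ : ℂ) := rfl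

theorem opC_algebraMap (r : ℝ) :
    C.opC (algebraMap ℝ C(C.Spec, ℂ) r) = algebraMap ℝ (K →L[ℂ] K) r := by
  have h : algebraMap ℝ C(C.Spec, ℂ) r = (r : ℂ) • (1 : C(C.Spec, ℂ)) := by
    ext χ; simp
  rw [h, C.opC_smul, C.opC_one, Algebra.algebraMap_eq_smul_one, Complex.coe_smul]

/-- The real symbols as operators. -/
def op : C(C.Spec, ℝ) →ₐ[ℝ] (K →L[ℂ] K) where
  toFun f := C.opC (C.cR f)
  map_one' := by rw [map_one, C.opC_one]
  map_mul' f g := by rw [map_mul, C.opC_mul]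
  map_zero' := by rw [map_zero, C.opC_zero]
  map_add' f g := by rw [map_add, C.opC_add]
  commutes' r := by rw [AlgHom.commutes, C.opC_algebraMap]

theorem op_eq (f : C(C.Spec, ℝ)) : C.op f = C.opC (C.cR f) := rfl

theorem op_mem (f : C(C.Spec, ℝ)) : C.op f ∈ C.A := C.opC_mem _

theorem op_mem_M (f : C(C.Spec, ℝ)) : C.op f ∈ C.M := C.hAM (C.op_mem f)

theorem fn_op (f : C(C.Spec, ℝ)) (χ : C.Spec) : C.fn (C.op f) χ = (f χ : ℂ) := by
  change C.fn (C.opC _) χ = _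
  rw [C.fn_opC]
  rfl

theorem op_sa (f : C(C.Spec, ℝ)) : IsSelfAdjoint (C.op f) := by
  change star (C.opC _) = C.opC _
  rw [← C.opC_star]
  congr 1
  ext χ
  exact Complex.conj_ofReal _

theorem op_comm (f g : C(C.Spec, ℝ)) : C.op f * C.op g = C.op g * C.op f := by
  rw [← map_mul, ← map_mul, mul_comm]

/-- The real part of the symbol of an element of `A`. -/
def re (T : K →L[ℂ] K) : C(C.Spec, ℝ) :=
  ⟨fun χ => (C.fn T χ).re, Complex.continuous_re.comp (C.fn T).continuous⟩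

@[simp] theorem re_op (f : C(C.Spec, ℝ)) : C.re (C.op f) = f := by
  ext χ
  change (C.fn (C.op f) χ).re = _
  rw [C.fn_op, Complex.ofReal_re]

theorem op_re {T : K →L[ℂ] K} (hT : T ∈ C.A) (hs : IsSelfAdjoint T) : C.op (C.re T) = T := by
  conv_rhs => rw [← C.opC_fn hT]
  change C.opC _ = _
  congr 1
  ext χ
  have h : star (C.fn T χ) = C.fn T χ := by
    rw [← ContinuousMap.star_apply, ← C.fn_star hT, hs.star_eq]
  exact Complex.conj_eq_iff_re.1 h

theorem op_inj : Function.Injective C.op := fun f g h => by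
  rw [← C.re_op f, h, C.re_op]

theorem op_nonneg {f : C(C.Spec, ℝ)} (hf : ∀ χ, 0 ≤ f χ) : 0 ≤ C.op f := by
  set g : C(C.Spec, ℝ) := ⟨fun χ => √(f χ), f.continuous.sqrt⟩
  have : f = g * g := by ext χ; exact (Real.mul_self_sqrt (hf χ)).symm
  rw [this, map_mul]
  conv => enter [2, 1]; rw [← (C.op_sa g).star_eq]
  exact star_mul_self_nonneg _

theorem op_mono {f g : C(C.Spec, ℝ)} (h : ∀ χ, f χ ≤ g χ) : C.op f ≤ C.op g := by
  rw [← sub_nonneg, ← map_sub]
  exact C.op_nonneg fun χ => sub_nonneg.2 (h χ)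

theorem apply_nonneg {f : C(C.Spec, ℝ)} (hf : 0 ≤ C.op f) (χ : C.Spec) : 0 ≤ f χ := by
  by_contra hneg
  rw [not_le] at hneg
  set g : C(C.Spec, ℝ) := ⟨fun χ => √(max (-f χ) 0), (f.continuous.neg.max continuous_const).sqrt⟩
  set k : C(C.Spec, ℝ) := ⟨fun χ => √(√(max (-f χ) 0)),
    (f.continuous.neg.max continuous_const).sqrt.sqrt⟩
  have h1 : 0 ≤ C.op (g * f * g) := by
    rw [map_mul, map_mul]
    conv => enter [2, 1, 1]; rw [← (C.op_sa g).star_eq]
    exact star_left_conjugate_nonneg hf _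
  have h2 : C.op (g * f * g) ≤ 0 := by
    have := C.op_mono (f := g * f * g) (g := 0) fun χ => by
      rcases le_total (f χ) 0 with h | h
      · exact mul_nonpos_of_nonpos_of_nonneg
          (mul_nonpos_of_nonneg_of_nonpos (Real.sqrt_nonneg _) h) (Real.sqrt_nonneg _)
      · simp [g, h]
    simpa using this
  have h3 : g * f * g = 0 := C.op_inj (by simpa using le_antisymm h2 h1)
  have h4 : g χ * f χ * g χ = 0 := congrArg (fun F : C(C.Spec, ℝ) => F χ) h3
  have : 0 < g χ := Real.sqrt_pos.2 (lt_max_of_lt_left (neg_pos.2 hneg))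
  simp [hneg.ne, this.ne'] at h4

theorem op_le_iff {f g : C(C.Spec, ℝ)} : C.op f ≤ C.op g ↔ ∀ χ, f χ ≤ g χ := by
  refine ⟨fun h χ => ?_, C.op_mono⟩
  rw [← sub_nonneg, ← map_sub] at h
  exact sub_nonneg.1 (C.apply_nonneg h χ)

theorem norm_op (f : C(C.Spec, ℝ)) : ‖C.op f‖ = ‖f‖ := by
  change ‖C.opC _‖ = _
  rw [C.norm_opC]
  refine le_antisymm ((ContinuousMap.norm_le _ (norm_nonneg _)).2 fun χ => ?_)
    ((ContinuousMap.norm_le _ (norm_nonneg _)).2 fun χ => ?_)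
  · exact (Complex.norm_real _).trans_le (f.norm_coe_le_norm χ)
  · refine le_trans (Complex.norm_real (f χ)).ge ?_
    exact ContinuousMap.norm_coe_le_norm
      (C.cR f) χ

/-- The state. -/
def tr (x : K →L[ℂ] K) : ℂ := ⟪C.Ω, x C.Ω⟫_ℂ

/-- The two-norm. -/
def nrm (x : K →L[ℂ] K) : ℝ := ‖x C.Ω‖

/-- The state of a real symbol. -/
def intA (f : C(C.Spec, ℝ)) : ℝ := (C.tr (C.op f)).re

theorem tr_add (x y : K →L[ℂ] K) : C.tr (x + y) = C.tr x + C.tr y := inner_add_right _ _ _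

theorem tr_sub (x y : K →L[ℂ] K) : C.tr (x - y) = C.tr x - C.tr y := inner_sub_right _ _ _

theorem tr_smul (c : ℂ) (x : K →L[ℂ] K) : C.tr (c • x) = c * C.tr x := inner_smul_right _ _ _

theorem tr_sum {ι : Type*} (s : Finset ι) (f : ι → K →L[ℂ] K) :
    C.tr (∑ i ∈ s, f i) = ∑ i ∈ s, C.tr (f i) := by
  simp [tr]

theorem tr_comm {a x : K →L[ℂ] K} (ha : a ∈ C.A) (hx : x ∈ C.M) : C.tr (a * x) = C.tr (x * a) :=
  C.hcen a ha x hx

theorem tr_star (x : K →L[ℂ] K) : C.tr (star x) = starRingEnd ℂ (C.tr x) := by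
  rw [tr, tr, inner_conj_symm, ← ContinuousLinearMap.adjoint_inner_right,
    ContinuousLinearMap.star_eq_adjoint]

theorem inner_apply (x y : K →L[ℂ] K) : ⟪x C.Ω, y C.Ω⟫_ℂ = C.tr (star x * y) := by
  rw [tr, ContinuousLinearMap.star_eq_adjoint]
  exact (ContinuousLinearMap.adjoint_inner_right x _ _).symm

theorem tr_star_mul_self (x : K →L[ℂ] K) : C.tr (star x * x) = (C.nrm x : ℂ) ^ 2 := by
  rw [← C.inner_apply, inner_self_eq_norm_sq_to_K]
  rfl

theorem norm_tr_le (x y : K →L[ℂ] K) : ‖C.tr (star x * y)‖ ≤ C.nrm x * C.nrm y := by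
  rw [← C.inner_apply]
  exact norm_inner_le_norm _ _

theorem tr_nonneg {x : K →L[ℂ] K} (hx : 0 ≤ x) : 0 ≤ (C.tr x).re := by
  have := ((ContinuousLinearMap.nonneg_iff_isPositive x).1 hx).re_inner_nonneg_right C.Ω
  simpa [tr] using this

theorem tr_mono {x y : K →L[ℂ] K} (h : x ≤ y) : (C.tr x).re ≤ (C.tr y).re := by
  have := C.tr_nonneg (sub_nonneg.2 h)
  rw [C.tr_sub, Complex.sub_re] at this
  linarith

theorem nrm_mul_le_left (x y : K →L[ℂ] K) : C.nrm (x * y) ≤ ‖x‖ * C.nrm y := x.le_opNorm _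

theorem intA_add (f g : C(C.Spec, ℝ)) : C.intA (f + g) = C.intA f + C.intA g := by
  simp [intA, map_add, C.tr_add]

theorem intA_smul (c : ℝ) (f : C(C.Spec, ℝ)) : C.intA (c • f) = c * C.intA f := by
  rw [intA, map_smul, ← Complex.coe_smul, C.tr_smul, intA, Complex.re_ofReal_mul]

theorem intA_mono {f g : C(C.Spec, ℝ)} (h : ∀ χ, f χ ≤ g χ) : C.intA f ≤ C.intA g :=
  C.tr_mono (C.op_mono h)

theorem intA_nonneg {f : C(C.Spec, ℝ)} (h : ∀ χ, 0 ≤ f χ) : 0 ≤ C.intA f :=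
  C.tr_nonneg (C.op_nonneg h)

theorem intA_sum {ι : Type*} (s : Finset ι) (f : ι → C(C.Spec, ℝ)) :
    C.intA (∑ i ∈ s, f i) = ∑ i ∈ s, C.intA (f i) := by
  simp [intA, map_sum, C.tr_sum, Complex.re_sum]

theorem intA_const (c : ℝ) : C.intA (algebraMap ℝ _ c) = c * ‖C.Ω‖ ^ 2 := by
  rw [Algebra.algebraMap_eq_smul_one, C.intA_smul, intA, map_one]
  congr 1
  exact inner_self_eq_norm_sq (𝕜 := ℂ) C.Ω

attribute [irreducible] op opC fn

end Ctx

end Vale.Agent.P078.Expected
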