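import Vale.Agent.P078.Expected.Target
import Vale.Agent.P078.General.Split

/-!
From inclusions with expectation to corners with central states: amplification and compression.
-/

noncomputable section

open scoped InnerProductSpace
open Vale.Agent.P078.Finite (IsMasaIn diag diag_apply norm_diag_le norm_starProjection_le_one
  star_comm_of_comm)
open Vale.Agent.P078.General (StateCorner)

namespace Vale.Agent.P078.General

universe u

variable {H : Type u} [NormedAddCommGroup H] [InnerProductSpace ℂ H] [CompleteSpace H]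

open Vale.Agent.P078.Expected

namespace StateCorner

variable {M : VonNeumannAlgebra H} {A : StarSubalgebra ℂ (H →L[ℂ] H)} (D : StateCorner M A)

/-- The range of the corner. -/
def V : Submodule ℂ H := LinearMap.ker ((1 - D.p : H →L[ℂ] H) : H →ₗ[ℂ] H)

theorem mem_V {v : H} : v ∈ D.V ↔ D.p v = v := by
  rw [V, LinearMap.mem_ker]
  change v - D.p v = 0 ↔ _
  rw [sub_eq_zero, eq_comm]

instance : CompleteSpace D.V := (1 - D.p : H →L[ℂ] H).isClosed_ker.completeSpace_coe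

theorem p_p (v : H) : D.p (D.p v) = D.p v :=
  congrArg (fun T : H →L[ℂ] H => T v) D.hproj.isIdempotentElem

theorem p_mem_M : D.p ∈ M := D.masa.1 _ D.hp

/-- The projection onto the corner. -/
def π : H →L[ℂ] D.V := D.p.codRestrict D.V fun v => D.mem_V.2 (D.p_p v)

theorem coe_π (v : H) : (D.π v : H) = D.p v := rfl

theorem π_coe (v : D.V) : D.π (v : H) = v := Subtype.ext (D.mem_V.1 v.2)

/-- Compression to the corner. -/
def cor (x : H →L[ℂ] H) : D.V →L[ℂ] D.V := D.π ∘L x ∘L D.V.subtypeL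

/-- Extension by zero from the corner. -/
def lift (T : D.V →L[ℂ] D.V) : H →L[ℂ] H := D.V.subtypeL ∘L T ∘L D.π

theorem cor_apply (x : H →L[ℂ] H) (v : D.V) : D.cor x v = D.π (x v) := rfl

theorem lift_apply (T : D.V →L[ℂ] D.V) (v : H) : D.lift T v = (T (D.π v) : H) := rfl

theorem lift_cor (x : H →L[ℂ] H) : D.lift (D.cor x) = D.p * x * D.p := rfl

theorem cor_lift (T : D.V →L[ℂ] D.V) : D.cor (D.lift T) = T :=
  ContinuousLinearMap.ext fun v => by rw [cor_apply, lift_apply, D.π_coe, D.π_coe]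

/-- Membership in the corner. -/
def Fix (x : H →L[ℂ] H) : Prop := D.p * x * D.p = x

theorem fix_left {x : H →L[ℂ] H} (h : D.Fix x) : D.p * x = x := by
  conv_rhs => rw [← h]
  conv_lhs => rw [← h]
  simp only [← mul_assoc, D.hproj.isIdempotentElem.eq]

theorem fix_right {x : H →L[ℂ] H} (h : D.Fix x) : x * D.p = x := by
  conv_rhs => rw [← h]
  conv_lhs => rw [← h]
  simp only [mul_assoc, D.hproj.isIdempotentElem.eq]

theorem fix_compress (x : H →L[ℂ] H) : D.Fix (D.p * x * D.p) := by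
  have e := D.hproj.isIdempotentElem.eq
  simp only [Fix, mul_assoc, e]
  rw [← mul_assoc D.p D.p, e]

theorem fix_lift (T : D.V →L[ℂ] D.V) : D.Fix (D.lift T) := by
  ext v
  change D.p (T (D.π (D.p v)) : H) = (T (D.π v) : H)
  rw [D.mem_V.1 (T _).2]
  congr 2
  exact Subtype.ext (D.p_p v)

theorem fix_star {x : H →L[ℂ] H} (h : D.Fix x) : D.Fix (star x) := by
  have := congrArg star h
  rwa [star_mul, star_mul, D.hproj.isSelfAdjoint.star_eq, ← mul_assoc] at this

theorem fix_mul {x y : H →L[ℂ] H} (hx : D.Fix x) (hy : D.Fix y) : D.Fix (x * y) := by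
  rw [Fix, ← mul_assoc, D.fix_left hx, mul_assoc, D.fix_right hy]

theorem fix_p : D.Fix D.p := by
  simp only [Fix, D.hproj.isIdempotentElem.eq]

theorem fix_sub {x y : H →L[ℂ] H} (hx : D.Fix x) (hy : D.Fix y) : D.Fix (x - y) := by
  rw [Fix, mul_sub, sub_mul, hx, hy]

theorem fix_sum {ι : Type*} (s : Finset ι) {x : ι → H →L[ℂ] H} (hx : ∀ i ∈ s, D.Fix (x i)) :
    D.Fix (∑ i ∈ s, x i) := by
  rw [Fix, Finset.mul_sum, Finset.sum_mul]
  exact Finset.sum_congr rfl hx

theorem star_cor (x : H →L[ℂ] H) : star (D.cor x) = D.cor (star x) := by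
  rw [ContinuousLinearMap.star_eq_adjoint, ← ContinuousLinearMap.eq_adjoint_iff _ _ |>.2]
  intro v w
  rw [Submodule.coe_inner, Submodule.coe_inner, cor_apply, cor_apply, D.coe_π, D.coe_π]
  have hp : ∀ a b : H, ⟪D.p a, b⟫_ℂ = ⟪a, D.p b⟫_ℂ := fun a b => by
    conv_rhs => rw [← ContinuousLinearMap.adjoint_inner_left]
    rw [← ContinuousLinearMap.star_eq_adjoint, D.hproj.isSelfAdjoint.star_eq]
  rw [hp, D.mem_V.1 w.2, ← hp, D.mem_V.1 v.2, ContinuousLinearMap.star_eq_adjoint,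
    ContinuousLinearMap.adjoint_inner_left]

theorem norm_π_le (v : H) : ‖D.π v‖ ≤ ‖v‖ := by
  change ‖D.p v‖ ≤ ‖v‖
  refine (D.p.le_opNorm v).trans (mul_le_of_le_one_left (norm_nonneg _) ?_)
  exact norm_starProjection_le_one D.hproj

theorem norm_cor_le (x : H →L[ℂ] H) : ‖D.cor x‖ ≤ ‖x‖ :=
  ContinuousLinearMap.opNorm_le_bound _ (norm_nonneg _) fun _ =>
    (D.norm_π_le _).trans (x.le_opNorm _)

theorem norm_lift_le (T : D.V →L[ℂ] D.V) : ‖D.lift T‖ ≤ ‖T‖ :=
  ContinuousLinearMap.opNorm_le_bound _ T.opNorm_nonneg fun (v : H) =>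
    (T.le_opNorm _).trans (mul_le_mul_of_nonneg_left (D.norm_π_le v) (norm_nonneg _))

/-- The amplified space. -/
abbrev Amp : Type u := lp (fun _ : ℕ => D.V) 2

/-- Evaluation and insertion. -/
def unit (i j : ℕ) : D.Amp →L[ℂ] D.Amp :=
  lp.singleContinuousLinearMap ℂ (fun _ : ℕ => D.V) 2 i ∘L lp.evalCLM ℂ (fun _ : ℕ => D.V) 2 j

/-- The representation on the amplified space. -/
def φ (x : H →L[ℂ] H) : D.Amp →L[ℂ] D.Amp := diag (D.cor x)

theorem φ_apply (x : H →L[ℂ] H) (v : D.Amp) (n : ℕ) : D.φ x v n = D.cor x (v n) := rfl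

theorem φ_add (x y : H →L[ℂ] H) : D.φ (x + y) = D.φ x + D.φ y := by
  refine ContinuousLinearMap.ext fun v => lp.ext (funext fun n => ?_)
  simp [φ_apply, cor_apply, map_add]

theorem φ_smul (c : ℂ) (x : H →L[ℂ] H) : D.φ (c • x) = c • D.φ x := by
  refine ContinuousLinearMap.ext fun v => lp.ext (funext fun n => ?_)
  simp [φ_apply, cor_apply, map_smul]

theorem φ_zero : D.φ 0 = 0 := by
  refine ContinuousLinearMap.ext fun v => lp.ext (funext fun n => ?_)
  simp [φ_apply, cor_apply]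

theorem φ_sub (x y : H →L[ℂ] H) : D.φ (x - y) = D.φ x - D.φ y := by
  refine ContinuousLinearMap.ext fun v => lp.ext (funext fun n => ?_)
  simp [φ_apply, cor_apply, map_sub]

theorem φ_sum {ι : Type*} (s : Finset ι) (x : ι → H →L[ℂ] H) :
    D.φ (∑ i ∈ s, x i) = ∑ i ∈ s, D.φ (x i) :=
  map_sum (AddMonoidHom.mk' D.φ D.φ_add) x s

theorem φ_mul {x y : H →L[ℂ] H} (h : x * D.p = x ∨ D.p * y = y) :
    D.φ (x * y) = D.φ x * D.φ y := by
  refine ContinuousLinearMap.ext fun v => lp.ext (funext fun n => Subtype.ext ?_)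
  change D.p ((x * y) (v n : H)) = D.p (x (D.p (y (v n : H))))
  rcases h with h | h
  · exact congrArg D.p (congrArg (fun T : H →L[ℂ] H => T (y (v n : H))) h).symm
  · exact congrArg (fun T : H →L[ℂ] H => D.p (x (T (v n : H)))) h.symm

theorem φ_p : D.φ D.p = 1 := by
  refine ContinuousLinearMap.ext fun v => lp.ext (funext fun n => ?_)
  change D.π (D.p (v n : H)) = v n
  rw [D.mem_V.1 (v n).2, D.π_coe]

theorem φ_star (x : H →L[ℂ] H) : star (D.φ x) = D.φ (star x) := by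
  rw [ContinuousLinearMap.star_eq_adjoint, ← ContinuousLinearMap.eq_adjoint_iff _ _ |>.2]
  intro v w
  rw [lp.inner_eq_tsum, lp.inner_eq_tsum]
  refine tsum_congr fun n => ?_
  rw [φ_apply, φ_apply, ← D.star_cor, ContinuousLinearMap.star_eq_adjoint,
    ContinuousLinearMap.adjoint_inner_left]

theorem norm_φ_le (x : H →L[ℂ] H) : ‖D.φ x‖ ≤ ‖x‖ := (norm_diag_le _).trans (D.norm_cor_le x)

theorem φ_single (x : H →L[ℂ] H) (v : D.V) :
    D.φ x (lp.single 2 0 v) 0 = D.cor x v := by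
  rw [φ_apply, lp.single_apply_self]

theorem norm_le_φ {x : H →L[ℂ] H} (hx : D.Fix x) : ‖x‖ ≤ ‖D.φ x‖ := by
  conv_lhs => rw [← hx, ← D.lift_cor]
  refine (D.norm_lift_le _).trans ?_
  refine ContinuousLinearMap.opNorm_le_bound _ (D.φ x).opNorm_nonneg fun v => ?_
  rw [← D.φ_single x v]
  refine (lp.norm_apply_le_norm two_ne_zero _ _).trans ?_
  refine ((D.φ x).le_opNorm _).trans (le_of_eq ?_)
  rw [lp.norm_single (by norm_num)]

theorem φ_inj {x y : H →L[ℂ] H} (hx : D.Fix x) (hy : D.Fix y) (h : D.φ x = D.φ y) : x = y := by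
  have h1 := D.norm_le_φ (D.fix_sub hx hy)
  rw [D.φ_sub, h, sub_self, ContinuousLinearMap.opNorm_zero] at h1
  exact sub_eq_zero.1 (norm_le_zero_iff.1 h1)

/-- Operators whose commutant is the amplified corner algebra. -/
def gens : Set (D.Amp →L[ℂ] D.Amp) :=
  {X | ∃ s ∈ M.commutant, X = D.φ s} ∪ Set.range fun ij : ℕ × ℕ => D.unit ij.1 ij.2

theorem unit_apply (i j : ℕ) (v : D.Amp) (n : ℕ) :
    D.unit i j v n = if n = i then v j else 0 := by
  change (lp.single 2 i (v j) : D.Amp) n = _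
  rw [lp.single_apply]
  split_ifs with h
  · subst h; simp
  · simp [h]

theorem φ_commute {x : H →L[ℂ] H} (hx : x ∈ M) (hf : D.Fix x) {g : D.Amp →L[ℂ] D.Amp}
    (hg : g ∈ D.gens) : g * D.φ x = D.φ x * g := by
  rcases hg with ⟨s, hs, rfl⟩ | ⟨⟨i, j⟩, rfl⟩
  · rw [← D.φ_mul (Or.inr (D.fix_left hf)), ← D.φ_mul (Or.inl (D.fix_right hf)),
      VonNeumannAlgebra.mem_commutant_iff.1 hs x hx]
  · refine ContinuousLinearMap.ext fun v => lp.ext (funext fun n => ?_)
    change D.unit i j (D.φ x v) n = D.φ x (D.unit i j v) n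
    rw [unit_apply, φ_apply, φ_apply, unit_apply]
    split_ifs <;> simp

/-- The amplified corner algebra. -/
def MK : StarSubalgebra ℂ (D.Amp →L[ℂ] D.Amp) := StarSubalgebra.centralizer ℂ D.gens

theorem mem_MK {X : D.Amp →L[ℂ] D.Amp} :
    X ∈ D.MK ↔ ∃ x ∈ M, D.Fix x ∧ X = D.φ x := by
  constructor
  · intro hX
    rw [MK, StarSubalgebra.mem_centralizer_iff] at hX
    set T : D.V →L[ℂ] D.V := lp.evalCLM ℂ (fun _ : ℕ => D.V) 2 0 ∘L X ∘L
      lp.singleContinuousLinearMap ℂ (fun _ : ℕ => D.V) 2 0 with hT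
    have hXT : X = diag T := by
      refine ContinuousLinearMap.ext fun v => lp.ext (funext fun n => ?_)
      have h1 := congrArg (fun R : D.Amp →L[ℂ] D.Amp => R v 0)
        (hX _ (Or.inr ⟨(0, n), rfl⟩)).1
      simp only [ContinuousLinearMap.mul_def, ContinuousLinearMap.comp_apply] at h1
      rw [unit_apply, if_pos rfl] at h1
      rw [diag_apply, h1]
      rfl
    have hTc : diag T = D.φ (D.lift T) := by rw [φ, D.cor_lift]
    refine ⟨D.lift T, ?_, D.fix_lift T, hXT.trans hTc⟩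
    suffices h : D.lift T ∈ M.commutant.commutant by
      rwa [VonNeumannAlgebra.commutant_commutant] at h
    rw [VonNeumannAlgebra.mem_commutant_iff]
    intro s hs
    have hsp : s * D.p = D.p * s :=
      (VonNeumannAlgebra.mem_commutant_iff.1 hs _ D.p_mem_M).symm
    have h2 := (hX _ (Or.inl ⟨s, hs, rfl⟩)).1
    rw [hXT, hTc, ← D.φ_mul (Or.inr (D.fix_left (D.fix_lift T))),
      ← D.φ_mul (Or.inl (D.fix_right (D.fix_lift T)))] at h2
    have hl : D.Fix (s * D.lift T) := by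
      rw [Fix, ← mul_assoc, ← hsp, mul_assoc s, D.fix_left (D.fix_lift T), mul_assoc,
        D.fix_right (D.fix_lift T)]
    have hr : D.Fix (D.lift T * s) := by
      rw [Fix, ← mul_assoc, D.fix_left (D.fix_lift T), mul_assoc, hsp, ← mul_assoc,
        D.fix_right (D.fix_lift T)]
    exact D.φ_inj hl hr h2
  · rintro ⟨x, hx, hf, rfl⟩
    rw [MK, StarSubalgebra.mem_centralizer_iff]
    intro g hg
    refine ⟨D.φ_commute hx hf hg, ?_⟩
    have h := star_comm_of_comm (D.φ_commute (star_mem hx) (D.fix_star hf) hg)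
    rwa [D.φ_star, star_star] at h

/-- The amplified maximal abelian algebra. -/
def AK : StarSubalgebra ℂ (D.Amp →L[ℂ] D.Amp) :=
  StarSubalgebra.centralizer ℂ (D.gens ∪ {X | ∃ a ∈ A, X = D.φ a})

theorem p_comm {a : H →L[ℂ] H} (ha : a ∈ A) : D.p * a = a * D.p :=
  (D.masa.2 _ D.p_mem_M).1 D.hp a ha

theorem AK_le : D.AK ≤ D.MK := fun X hX => by
  rw [AK, StarSubalgebra.mem_centralizer_iff] at hX
  rw [MK, StarSubalgebra.mem_centralizer_iff]
  exact fun g hg => hX g (Or.inl hg)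

theorem mem_AK {X : D.Amp →L[ℂ] D.Amp} :
    X ∈ D.AK ↔ ∃ x ∈ A, D.Fix x ∧ X = D.φ x := by
  constructor
  · intro hX
    obtain ⟨x, hx, hf, rfl⟩ := D.mem_MK.1 (D.AK_le hX)
    refine ⟨x, (D.masa.2 x hx).2 fun a ha => ?_, hf, rfl⟩
    rw [AK, StarSubalgebra.mem_centralizer_iff] at hX
    have h := (hX _ (Or.inr ⟨a, ha, rfl⟩)).1
    rw [← D.φ_mul (Or.inr (D.fix_left hf)), ← D.φ_mul (Or.inl (D.fix_right hf))] at h
    refine (D.φ_inj ?_ ?_ h).symm
    · rw [Fix, ← mul_assoc, D.p_comm ha, mul_assoc a, D.fix_left hf, mul_assoc, D.fix_right hf]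
    · rw [Fix, ← mul_assoc, D.fix_left hf, mul_assoc, ← D.p_comm ha, ← mul_assoc,
        D.fix_right hf]
  · rintro ⟨x, hx, hf, rfl⟩
    have hxM := D.masa.1 x hx
    rw [AK, StarSubalgebra.mem_centralizer_iff]
    rintro g (hg | ⟨a, ha, rfl⟩)
    · have := D.mem_MK.2 ⟨x, hxM, hf, rfl⟩
      rw [MK, StarSubalgebra.mem_centralizer_iff] at this
      exact this g hg
    · have key : ∀ b ∈ A, D.φ b * D.φ x = D.φ x * D.φ b := fun b hb => by
        rw [← D.φ_mul (Or.inr (D.fix_left hf)), ← D.φ_mul (Or.inl (D.fix_right hf)),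
          (D.masa.2 x hxM).1 hx b hb]
      refine ⟨key a ha, ?_⟩
      rw [D.φ_star]
      exact key _ (star_mem ha)

theorem φ_compress (x : H →L[ℂ] H) : D.φ (D.p * x * D.p) = D.φ x := by
  rw [D.φ_mul (Or.inr D.hproj.isIdempotentElem), D.φ_mul (Or.inl D.hproj.isIdempotentElem),
    D.φ_p, one_mul, mul_one]

theorem compress_mem {a : H →L[ℂ] H} (ha : a ∈ A) : D.p * a * D.p ∈ A :=
  mul_mem (mul_mem D.hp ha) D.hp

/-- The trace vector. -/
def Om : D.Amp :=
  ⟨fun n => ⟨D.ξ n, D.mem_V.2 (D.hξ n)⟩, memℓp_gen (by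
    simp only [ENNReal.toReal_ofNat, Real.rpow_two]
    exact D.hsum)⟩

theorem Om_apply (n : ℕ) : (D.Om n : H) = D.ξ n := rfl

/-- The tracial inclusion attached to a corner. -/
def toCtx : Ctx D.Amp where
  M := D.MK
  A := D.AK
  Ω := D.Om
  hM := by
    refine ⟨D.gens ∪ star D.gens, fun T => ?_⟩
    rw [MK, StarSubalgebra.mem_centralizer_iff]
    constructor
    · rintro h s (hs | hs)
      · exact ((h s hs).1).symm
      · have h2 := (h _ hs).2
        rw [star_star] at h2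
        exact h2.symm
    · intro h g hg
      refine ⟨(h g (Or.inl hg)).symm, (h (star g) (Or.inr ?_)).symm⟩
      rw [Set.mem_star, star_star]
      exact hg
  hAM := D.AK_le
  hA := fun T hT => by
    constructor
    · intro hTA a ha
      obtain ⟨x, hx, hxf, rfl⟩ := D.mem_AK.1 hTA
      obtain ⟨y, hy, hyf, rfl⟩ := D.mem_AK.1 ha
      rw [← D.φ_mul (Or.inl (D.fix_right hxf)), ← D.φ_mul (Or.inl (D.fix_right hyf)),
        (D.masa.2 x (D.masa.1 x hx)).1 hx y hy]
    · intro h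
      obtain ⟨x, hx, hf, rfl⟩ := D.mem_MK.1 hT
      rw [AK, StarSubalgebra.mem_centralizer_iff]
      rintro g (hg | ⟨a, ha, rfl⟩)
      · rw [MK, StarSubalgebra.mem_centralizer_iff] at hT
        exact hT g hg
      · have key : ∀ b ∈ A, D.φ b * D.φ x = D.φ x * D.φ b := fun b hb => by
          rw [← D.φ_compress b]
          exact (h _ (D.mem_AK.2 ⟨_, D.compress_mem hb, D.fix_compress b, rfl⟩)).symm
        refine ⟨key a ha, ?_⟩
        rw [D.φ_star]
        exact key _ (star_mem ha)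
  hcen := fun X hX Y hY => by
    obtain ⟨x, hx, hxf, rfl⟩ := D.mem_AK.1 hX
    obtain ⟨y, hy, hyf, rfl⟩ := D.mem_MK.1 hY
    rw [← D.φ_mul (Or.inl (D.fix_right hxf)), ← D.φ_mul (Or.inl (D.fix_right hyf)),
      lp.inner_eq_tsum, lp.inner_eq_tsum]
    have e : ∀ z : H →L[ℂ] H, D.Fix z → ∀ n, ⟪D.Om n, D.φ z D.Om n⟫_ℂ = ⟪D.ξ n, z (D.ξ n)⟫_ℂ := by
      intro z hz n
      rw [Submodule.coe_inner]
      change ⟪D.ξ n, D.p (z (D.ξ n))⟫_ℂ = _
      exact congrArg (fun R : H →L[ℂ] H => ⟪D.ξ n, R (D.ξ n)⟫_ℂ) (D.fix_left hz)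
    rw [tsum_congr (e _ (D.fix_mul hxf hyf)), tsum_congr (e _ (D.fix_mul hyf hxf))]
    exact D.hcen x hx y hy
  hsep := fun X hX h => by
    obtain ⟨x, hx, hf, rfl⟩ := D.mem_MK.1 hX
    have hx0 : x = 0 := D.hsep x hx hf fun n => by
      have h1 : (D.φ x D.Om n : H) = 0 := by rw [h]; rfl
      rwa [show (D.φ x D.Om n : H) = (D.p * x) (D.ξ n) from rfl, D.fix_left hf] at h1
    rw [hx0, D.φ_zero]

end StateCorner

/-- Paving inside a corner with a finite trace. -/
theorem pavableOn_of_stateCorner {rate : ℕ → ℝ} (h : Paving.{u} rate) {M : VonNeumannAlgebra H}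
    {A : StarSubalgebra ℂ (H →L[ℂ] H)} (D : StateCorner M A) {ε : ℝ} {r : ℕ} (hr : 1 ≤ r)
    (hrate : 2 * rate r ≤ ε) {x : H →L[ℂ] H} (hxM : x ∈ M) (hx : IsSelfAdjoint x) :
    General.PavableOn M A D.p ε r x := by
  classical
  intro F δ hδ
  set p := D.p with hpdef
  have hp : p ∈ A := D.hp
  have hproj : IsStarProjection p := D.hproj
  have hA : IsMasaIn M A := D.masa
  set C := D.toCtx with hCdef
  set x' := p * x * p with hx'
  have hx'f : D.Fix x' := D.fix_compress x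
  have hx'M : x' ∈ M := mul_mem (mul_mem (hA.1 p hp) hxM) (hA.1 p hp)
  have hx's : IsSelfAdjoint x' := by
    have := IsSelfAdjoint.conjugate hx p
    rwa [hproj.isSelfAdjoint.star_eq] at this
  have hX : D.φ x' ∈ C.M := D.mem_MK.2 ⟨x', hx'M, hx'f, rfl⟩
  have hXn : ‖D.φ x'‖ ≤ ‖x‖ := by
    rw [hx', hpdef, D.φ_compress]
    exact D.norm_φ_le x
  have hXs : IsSelfAdjoint (D.φ x') := by rw [IsSelfAdjoint, D.φ_star, hx's.star_eq]
  obtain ⟨e, he, hef, hee⟩ := D.mem_AK.1 (C.E_mem (D.φ x'))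
  have hes : IsSelfAdjoint e := D.φ_inj (D.fix_star hef) hef (by
    rw [← D.φ_star, ← hee]; exact C.E_sa hX hXs)
  have hen : ‖e‖ ≤ ‖x‖ := (D.norm_le_φ hef).trans (hee ▸ (C.norm_E_le hX).trans hXn)
  set c : ℝ := 2 * ‖x‖
  set y : D.Amp →L[ℂ] D.Amp := ((c⁻¹ : ℝ) : ℂ) • (D.φ x' - C.E (D.φ x')) with hy
  have hd : D.φ x' - C.E (D.φ x') ∈ C.M := sub_mem hX (C.E_mem_M _)
  have hdn : ‖D.φ x' - C.E (D.φ x')‖ ≤ c :=
    (norm_sub_le (D.φ x') (C.E (D.φ x'))).trans (by have := (C.norm_E_le hX).trans hXn; linarith)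
  have hcy : (c : ℂ) • y = D.φ x' - C.E (D.φ x') := by
    rcases eq_or_ne c 0 with h0 | h0
    · have hd1 : ‖D.φ x' - C.E (D.φ x')‖ ≤ 0 := h0 ▸ hdn
      have hd0 : D.φ x' - C.E (D.φ x') = 0 :=
        (ContinuousLinearMap.opNorm_zero_iff _).1 (le_antisymm hd1 (ContinuousLinearMap.opNorm_nonneg _))
      rw [hy, hd0, smul_zero, smul_zero]
    · rw [hy, smul_smul, ← Complex.ofReal_mul, mul_inv_cancel₀ h0, Complex.ofReal_one, one_smul]
  have hc : 0 ≤ c := by positivity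
  have hyM : y ∈ C.M := C.M.smul_mem hd _
  have hys : IsSelfAdjoint y := by
    exact IsSelfAdjoint.smul (Complex.conj_ofReal c⁻¹) (hXs.sub (C.E_sa hX hXs))
  have hyn : ‖y‖ ≤ 1 := by
    rw [hy]
    refine (ContinuousLinearMap.opNorm_smul_le ((c⁻¹ : ℝ) : ℂ) _).trans ?_
    rw [Complex.norm_real, Real.norm_of_nonneg (by positivity)]
    exact (mul_le_mul_of_nonneg_left hdn (by positivity)).trans inv_mul_le_one
  have hy0 : C.E y = 0 := by
    rw [hy, C.E_smul _ hd, C.E_sub hX (C.E_mem_M _), C.E_of_mem (C.E_mem _), sub_self, smul_zero]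
  -- choice of the trace tolerance
  have hR : ∀ v : H, ∃ R ∈ C.comm, ‖lp.single 2 0 (D.π v) - R C.Ω‖ < δ / 8 := by
    intro v
    obtain ⟨_, ⟨R, hR, rfl⟩, hd⟩ := Metric.mem_closure_iff.1
      (C.dense_comm (lp.single 2 0 (D.π v))) (δ / 8) (by positivity)
    exact ⟨R, hR, by rwa [dist_eq_norm] at hd⟩
  choose R hRc hRd using hR
  set N : ℝ := ∑ v ∈ F, ‖R v‖ + 1
  have hN : 0 < N := by positivity
  set η : ℝ := (δ / (8 * N)) ^ 2
  obtain ⟨f, hfi, hfs, qK, hqM, hqp, hqt, hqn⟩ :=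
    h C y hyM hys hyn hy0 r hr η (by positivity)
  obtain ⟨q, hq, hqf, rfl⟩ := D.mem_MK.1 hqM
  have hfA : ∀ i, ∃ a ∈ A, D.Fix a ∧ C.op (f i) = D.φ a := fun i => D.mem_AK.1 (C.op_mem _)
  choose g hg hgf hgo using hfA
  let s : Part C := ⟨r, f, hfi, hfs⟩
  have hgp : ∀ i, IsStarProjection (g i) := fun i => by
    refine ⟨D.φ_inj (D.fix_mul (hgf i) (hgf i)) (hgf i) ?_,
      D.φ_inj (D.fix_star (hgf i)) (hgf i) ?_⟩
    · rw [D.φ_mul (Or.inl (D.fix_right (hgf i))), ← hgo, ← map_mul, hfi]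
    · rw [← D.φ_star, ← hgo, (C.op_sa _).star_eq]
  have hgg : ∀ i j, i ≠ j → g i * g j = 0 := fun i j hij => by
    refine D.φ_inj (D.fix_mul (hgf i) (hgf j)) (by simp [StateCorner.Fix]) ?_
    rw [D.φ_mul (Or.inl (D.fix_right (hgf i))), ← hgo, ← hgo, ← map_mul,
      show f i * f j = 0 from s.orth hij, map_zero, D.φ_zero]
  have hgs : ∑ i, g i = p := by
    refine D.φ_inj (D.fix_sum _ fun i _ => hgf i) D.fix_p ?_
    rw [D.φ_sum]
    simp only [← hgo]
    rw [← map_sum, hfs, map_one]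
    exact D.φ_p.symm
  have hqP : IsStarProjection q :=
    ⟨D.φ_inj (D.fix_mul hqf hqf) hqf (by
        rw [D.φ_mul (Or.inl (D.fix_right hqf))]; exact hqp.isIdempotentElem),
      D.φ_inj (D.fix_star hqf) hqf (by rw [← D.φ_star]; exact hqp.isSelfAdjoint)⟩
  refine ⟨g, e, q, fun i => ⟨hg i, hgp i⟩, hgg, hgs, he, hes, hen, D.fix_left hef, hq, hqP,
    D.fix_left hqf, fun v hv => ?_, ?_⟩
  · have hpq : D.Fix (p - q) := D.fix_sub D.fix_p hqf
    have hM' : D.φ (p - q) = 1 - D.φ q := by rw [D.φ_sub]; exact congrArg (· - D.φ q) D.φ_p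
    have h1 : ‖(p - q) v‖ ≤ ‖D.φ (p - q) (lp.single 2 0 (D.π v))‖ := by
      refine le_trans (le_of_eq ?_) (lp.norm_apply_le_norm two_ne_zero _ 0)
      rw [D.φ_single, D.cor_apply]
      change _ = ‖D.p ((p - q) (D.p v))‖
      exact congrArg (fun T : H →L[ℂ] H => ‖T v‖) hpq.symm
    have h2 : C.nrm (1 - D.φ q) ≤ δ / (8 * N) := by
      refine (pow_le_pow_iff_left₀ (norm_nonneg _) (by positivity) two_ne_zero).1 ?_
      refine le_trans (le_of_eq ?_) hqt
      have hP := hqp.one_sub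
      have := C.tr_star_mul_self (1 - D.φ q)
      rw [hP.isSelfAdjoint.star_eq, hP.isIdempotentElem.eq] at this
      rw [this, ← Complex.ofReal_pow, Complex.ofReal_re]
      rfl
    have h3 : (1 - D.φ q) (R v C.Ω) = R v ((1 - D.φ q) C.Ω) :=
      congrArg (fun T : D.Amp →L[ℂ] D.Amp => T C.Ω) (hRc v _ (sub_mem (one_mem _) hqM))
    have h4 : ‖(1 - D.φ q) (lp.single 2 0 (D.π v))‖ ≤ δ / 8 + ‖R v‖ * (δ / (8 * N)) := by
      have e1 : (1 - D.φ q) (lp.single 2 0 (D.π v)) =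
          (1 - D.φ q) (lp.single 2 0 (D.π v) - R v C.Ω) + R v ((1 - D.φ q) C.Ω) := by
        rw [map_sub, ← h3]; abel
      rw [e1]
      refine (norm_add_le _ _).trans (add_le_add ?_ ?_)
      · refine ((1 - D.φ q).le_opNorm _).trans ?_
        refine (mul_le_of_le_one_left (norm_nonneg _) ?_).trans (hRd v).le
        exact norm_starProjection_le_one hqp.one_sub
      · exact ((R v).le_opNorm _).trans (mul_le_mul_of_nonneg_left h2 (norm_nonneg _))
    have h5 : ‖R v‖ * (δ / (8 * N)) ≤ δ / 8 := by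
      have : ‖R v‖ ≤ N :=
        (Finset.single_le_sum (fun w _ => norm_nonneg (R w)) hv).trans (le_add_of_nonneg_right zero_le_one)
      calc ‖R v‖ * (δ / (8 * N)) ≤ N * (δ / (8 * N)) :=
            mul_le_mul_of_nonneg_right this (by positivity)
        _ = δ / 8 := by field_simp
    rw [hM'] at h1
    linarith
  · have hgx : ∀ i, g i * x * g i = g i * x' * g i := fun i => by
      have e1 : g i * x' * g i = (g i * D.p) * x * (D.p * g i) := by
        simp only [hx', mul_assoc]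
        rfl
      rw [e1, D.fix_left (hgf i), D.fix_right (hgf i)]
    have hz : D.Fix (q * (∑ i, g i * x' * g i - e) * q) := D.fix_mul (D.fix_mul hqf
      (D.fix_sub (D.fix_sum _ fun i _ => D.fix_mul (D.fix_mul (hgf i) hx'f) (hgf i)) hef)) hqf
    simp only [hgx]
    refine (D.norm_le_φ hz).trans ?_
    have hE : ∑ i, C.op (f i) * C.E (D.φ x') * C.op (f i) = C.E (D.φ x') :=
      C.pinchP_of_mem s (C.E_mem _)
    have key : D.φ (q * (∑ i, g i * x' * g i - e) * q) =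
        (c : ℂ) • (D.φ q * (∑ i, C.op (f i) * y * C.op (f i)) * D.φ q) := by
      rw [D.φ_mul (Or.inr (D.fix_left hqf)), D.φ_mul (Or.inl (D.fix_right hqf)), D.φ_sub, D.φ_sum,
        ← smul_mul_assoc, ← mul_smul_comm, Finset.smul_sum]
      congr 2
      rw [← hee, ← hE, ← Finset.sum_sub_distrib]
      refine Finset.sum_congr rfl fun i _ => ?_
      rw [D.φ_mul (Or.inr (D.fix_left (hgf i))), D.φ_mul (Or.inl (D.fix_right (hgf i))), hgo i,
        ← sub_mul, ← mul_sub, ← hcy, mul_smul_comm, smul_mul_assoc]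
    rw [key]
    refine (ContinuousLinearMap.opNorm_smul_le _ _).trans ?_
    rw [Complex.norm_real, Real.norm_of_nonneg hc]
    calc c * ‖D.φ q * (∑ i, C.op (f i) * y * C.op (f i)) * D.φ q‖
        ≤ c * rate r := mul_le_mul_of_nonneg_left hqn hc
      _ = (2 * rate r) * ‖x‖ := by simp only [c]; ring
      _ ≤ ε * ‖x‖ := mul_le_mul_of_nonneg_right hrate (norm_nonneg _)

end Vale.Agent.P078.General
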