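import Vale.Agent.P078.Expected.Expect

/-!
The statement proved inside an inclusion with expectation.
-/

noncomputable section

namespace Vale.Agent.P078.Expected

universe u

/-- Centred selfadjoint contractions are paved at the given rate up to a set of small state. -/
def Paving (rate : ℕ → ℝ) : Prop :=
  ∀ {K : Type u} [NormedAddCommGroup K] [InnerProductSpace ℂ K] [CompleteSpace K] (C : Ctx K)
    (y : K →L[ℂ] K), y ∈ C.M → IsSelfAdjoint y → ‖y‖ ≤ 1 → C.E y = 0 →
    ∀ r : ℕ, 1 ≤ r → ∀ η : ℝ, 0 < η →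
      ∃ f : Fin r → C(C.Spec, ℝ), (∀ i, f i * f i = f i) ∧ ∑ i, f i = 1 ∧
        ∃ q ∈ C.M, IsStarProjection q ∧ (C.tr (1 - q)).re ≤ η ∧
          ‖q * (∑ i, C.op (f i) * y * C.op (f i)) * q‖ ≤ rate r

end Vale.Agent.P078.Expected
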