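import Vale.Agent.P078.Expected.Assembly
import Vale.Agent.P078.Expected.Iter.Main
import Vale.Agent.P078.Expected.Norm.Loss

/-!
So-paving with `C / ε ^ 2` pieces for every maximal abelian algebra of every von Neumann algebra.
-/

noncomputable section

open Vale.Agent.P078.Finite (IsMasaIn SoPavableIn)

namespace Vale.Agent.P078.Expected

universe u

/-- An absolute constant `C` such that at most `C / ε ^ 2` pieces so-pave every selfadjoint element
over every maximal abelian algebra. -/
theorem soPaving_count :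
    ∃ C : ℝ, 0 < C ∧
      ∀ (H : Type u) [NormedAddCommGroup H] [InnerProductSpace ℂ H] [CompleteSpace H]
        (M : VonNeumannAlgebra H) (A : StarSubalgebra ℂ (H →L[ℂ] H)),
        IsMasaIn M A → ∀ ε : ℝ, 0 < ε → ε < 1 →
          ∃ r : ℕ, 1 ≤ r ∧ (r : ℝ) ≤ C / ε ^ 2 ∧
            ∀ x ∈ M, IsSelfAdjoint x → SoPavableIn M A ε r x := by
  obtain ⟨C, hC, h⟩ := exists_const_soPaving (paving_rate fun C => lossBound C) one_le_two
    (rate_le_of_sqrt (C1 := 5 * √(20000000 * 3000000000)) (by positivity) fun r _ => le_rfl)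
  refine ⟨C + 1, by linarith, fun H _ _ _ M A hA ε hε hε1 => ⟨⌈C / ε ^ 2⌉₊, ?_, ?_,
    fun x hxM hx => h H M A hA ε hε _ (Nat.le_ceil _) x hxM hx⟩⟩
  · exact Nat.one_le_iff_ne_zero.2 (Nat.ceil_pos.2 (by positivity)).ne'
  · refine (Nat.ceil_lt_add_one (by positivity)).le.trans ?_
    rw [add_div]
    exact add_le_add le_rfl ((one_le_div (by positivity)).2
      (pow_le_one₀ hε.le hε1.le))

end Vale.Agent.P078.Expected
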