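import Vale.Agent.P078.Expected.Core

/-!
Finite partitions in `A`, directed by refinement, and spectral projections.
-/

noncomputable section

open scoped InnerProductSpace
open Filter Topology

namespace Vale.Agent.P078.Expected

universe u

variable {K : Type u} [NormedAddCommGroup K] [InnerProductSpace ℂ K] [CompleteSpace K]

theorem idem_values {X : Type*} [TopologicalSpace X] {p : C(X, ℝ)} (h : p * p = p) (x : X) :
    p x = 0 ∨ p x = 1 := by
  have h' : p x * p x = p x := congrArg (fun F : C(X, ℝ) => F x) h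
  rcases eq_or_ne (p x) 0 with h0 | h0
  · exact Or.inl h0
  · exact Or.inr (mul_right_cancel₀ h0 (h'.trans (one_mul _).symm))

/-- A finite partition of unity by projections of `A`. -/
structure Part (C : Ctx K) where
  n : ℕ
  c : Fin n → C(C.Spec, ℝ)
  idem : ∀ i, c i * c i = c i
  sum_eq : ∑ i, c i = 1

namespace Part

variable {C : Ctx K}

theorem values (s : Part C) (i : Fin s.n) (χ : C.Spec) : s.c i χ = 0 ∨ s.c i χ = 1 :=
  idem_values (s.idem i) χ

theorem sum_apply (s : Part C) (χ : C.Spec) : ∑ i, s.c i χ = 1 := by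
  rw [← ContinuousMap.sum_apply, s.sum_eq]
  rfl

theorem exists_one (s : Part C) (χ : C.Spec) : ∃ i, s.c i χ = 1 := by
  by_contra h
  push Not at h
  have : ∑ i, s.c i χ = 0 :=
    Finset.sum_eq_zero fun i _ => (s.values i χ).resolve_right (h i)
  rw [s.sum_apply] at this
  exact one_ne_zero this

theorem orth (s : Part C) {i j : Fin s.n} (h : i ≠ j) : s.c i * s.c j = 0 := by
  classical
  ext χ
  rw [ContinuousMap.mul_apply, ContinuousMap.zero_apply]
  rcases s.values i χ with hi | hi
  · rw [hi, zero_mul]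
  rcases s.values j χ with hj | hj
  · rw [hj, mul_zero]
  exfalso
  have h2 : s.c i χ + s.c j χ ≤ ∑ k, s.c k χ := by
    rw [← Finset.sum_pair (f := fun k => s.c k χ) h]
    exact Finset.sum_le_sum_of_subset_of_nonneg (Finset.subset_univ _) fun k _ _ => by
      rcases s.values k χ with hk | hk <;> simp [hk]
  rw [s.sum_apply, hi, hj] at h2
  norm_num at h2

/-- Refinement: each piece of `t` lies inside one piece of `s`. -/
protected def Le (s t : Part C) : Prop :=
  ∀ i j, s.c i * t.c j = t.c j ∨ s.c i * t.c j = 0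

theorem le_iff_apply {s t : Part C} : Part.Le s t ↔
    ∀ j, ∀ χ χ', t.c j χ = 1 → t.c j χ' = 1 → ∀ i, s.c i χ = s.c i χ' := by
  constructor
  · intro h j χ χ' h1 h2 i
    rcases h i j with e | e
    · have a := congrArg (fun F : C(C.Spec, ℝ) => F χ) e
      have b := congrArg (fun F : C(C.Spec, ℝ) => F χ') e
      simp only [ContinuousMap.mul_apply, h1, h2, mul_one] at a b
      rw [a, b]
    · have a := congrArg (fun F : C(C.Spec, ℝ) => F χ) e
      have b := congrArg (fun F : C(C.Spec, ℝ) => F χ') e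
      simp only [ContinuousMap.mul_apply, h1, h2, mul_one, ContinuousMap.zero_apply] at a b
      rw [a, b]
  · intro h i j
    by_cases hex : ∃ χ, t.c j χ = 1 ∧ s.c i χ = 1
    · obtain ⟨χ, h1, h2⟩ := hex
      refine Or.inl (ContinuousMap.ext fun χ' => ?_)
      rw [ContinuousMap.mul_apply]
      rcases t.values j χ' with h3 | h3
      · rw [h3, mul_zero]
      · rw [← h j χ χ' h1 h3 i, h2, one_mul]
    · refine Or.inr (ContinuousMap.ext fun χ' => ?_)
      rw [ContinuousMap.mul_apply, ContinuousMap.zero_apply]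
      rcases t.values j χ' with h3 | h3
      · rw [h3, mul_zero]
      · rw [(s.values i χ').resolve_right fun h4 => hex ⟨χ', h3, h4⟩, zero_mul]

instance : Preorder (Part C) where
  le := Part.Le
  le_refl s i j := by
    rcases eq_or_ne i j with rfl | h
    · exact Or.inl (s.idem i)
    · exact Or.inr (s.orth h)
  le_trans s t v h1 h2 := by
    rw [le_iff_apply] at h1 h2 ⊢
    intro j χ χ' hχ hχ' i
    obtain ⟨k, hk⟩ := t.exists_one χ
    refine h1 k χ χ' hk ?_ i
    rw [← h2 j χ χ' hχ hχ' k, hk]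

/-- The partition with a single piece. -/
def top (C : Ctx K) : Part C where
  n := 1
  c _ := 1
  idem _ := one_mul 1
  sum_eq := by simp

instance : Nonempty (Part C) := ⟨top C⟩

theorem top_le (s : Part C) : top C ≤ s := fun _ _ => Or.inl (one_mul _)

/-- The partition given by the pieces of a finite family of orthogonal idempotents. -/
def ofFintype {ι : Type*} [Fintype ι] (c : ι → C(C.Spec, ℝ)) (h1 : ∀ i, c i * c i = c i)
    (h2 : ∑ i, c i = 1) : Part C where
  n := Fintype.card ι
  c k := c ((Fintype.equivFin ι).symm k)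
  idem _ := h1 _
  sum_eq := by rw [(Fintype.equivFin ι).symm.sum_comp c, h2]

theorem le_ofFintype {ι : Type*} [Fintype ι] {c : ι → C(C.Spec, ℝ)} {h1 : ∀ i, c i * c i = c i}
    {h2 : ∑ i, c i = 1} {s : Part C} (h : ∀ i j, s.c i * c j = c j ∨ s.c i * c j = 0) :
    s ≤ ofFintype c h1 h2 := fun i _ => h i _

theorem sum_ofFintype {ι : Type*} [Fintype ι] {c : ι → C(C.Spec, ℝ)} {h1 : ∀ i, c i * c i = c i}
    {h2 : ∑ i, c i = 1} {α : Type*} [AddCommMonoid α] (f : C(C.Spec, ℝ) → α) :
    ∑ k, f ((ofFintype c h1 h2).c k) = ∑ i, f (c i) :=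
  (Fintype.equivFin ι).symm.sum_comp fun i => f (c i)

/-- The common refinement. -/
def meet (s t : Part C) : Part C :=
  ofFintype (fun k : Fin s.n × Fin t.n => s.c k.1 * t.c k.2)
    (fun k => by rw [mul_mul_mul_comm, s.idem, t.idem])
    (by rw [Fintype.sum_prod_type, ← Finset.sum_mul_sum, s.sum_eq, t.sum_eq, one_mul])

theorem le_meet_left (s t : Part C) : s ≤ meet s t := by
  refine le_ofFintype fun i k => ?_
  rcases eq_or_ne i k.1 with rfl | h
  · exact Or.inl (by rw [← mul_assoc, s.idem])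
  · exact Or.inr (by rw [← mul_assoc, s.orth h, zero_mul])

theorem le_meet_right (s t : Part C) : t ≤ meet s t := by
  refine le_ofFintype fun i k => ?_
  rcases eq_or_ne i k.2 with rfl | h
  · exact Or.inl (by rw [mul_left_comm, t.idem])
  · exact Or.inr (by rw [mul_left_comm, t.orth h, mul_zero])

instance : IsDirectedOrder (Part C) :=
  ⟨fun s t => ⟨meet s t, le_meet_left s t, le_meet_right s t⟩⟩

/-- The two-piece partition of a projection. -/
def pair (p : C(C.Spec, ℝ)) (hp : p * p = p) : Part C :=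
  ofFintype (fun b : Bool => if b then p else 1 - p)
    (fun b => by cases b <;> simp [hp, mul_sub, sub_mul])
    (by simp)

/-- A partition refining `pair p` resolves `p`. -/
theorem resolve {p : C(C.Spec, ℝ)} {hp : p * p = p} {s : Part C} (h : pair p hp ≤ s)
    (j : Fin s.n) : p * s.c j = s.c j ∨ p * s.c j = 0 := by
  obtain ⟨k, hk⟩ : ∃ k, (pair p hp).c k = p :=
    ⟨Fintype.equivFin Bool true, show (if (Fintype.equivFin Bool).symm (Fintype.equivFin Bool true) then p else 1 - p) = p by
      rw [Equiv.symm_apply_apply]; rfl⟩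
  rw [← hk]
  exact h k j

end Part

namespace Ctx

variable (C : Ctx K)

theorem op_sum_eq (s : Part C) : ∑ i, C.op (s.c i) = 1 := by
  rw [← map_sum, s.sum_eq, map_one]

theorem isStarProjection_op {p : C(C.Spec, ℝ)} (hp : p * p = p) : IsStarProjection (C.op p) :=
  ⟨show C.op p * C.op p = C.op p by rw [← map_mul, hp], C.op_sa p⟩

theorem sum_sq_norm (s : Part C) (v : K) : ∑ i, ‖C.op (s.c i) v‖ ^ 2 = ‖v‖ ^ 2 := by
  have h : ∀ i, ‖C.op (s.c i) v‖ ^ 2 = (⟪v, C.op (s.c i) v⟫_ℂ).re := fun i => by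
    rw [← inner_self_eq_norm_sq (𝕜 := ℂ), ← ContinuousLinearMap.adjoint_inner_right,
      ← ContinuousLinearMap.star_eq_adjoint, (C.op_sa _).star_eq]
    change RCLike.re ⟪v, (C.op (s.c i) * C.op (s.c i)) v⟫_ℂ = _
    rw [← map_mul, s.idem]
    rfl
  rw [Finset.sum_congr rfl fun i _ => h i, ← Complex.re_sum, ← inner_sum, ← _root_.sum_apply,
    C.op_sum_eq]
  exact inner_self_eq_norm_sq (𝕜 := ℂ) v

/-- The range projection of a selfadjoint element of `A` belongs to `A`. -/
theorem exists_range_proj {a : K →L[ℂ] K} (ha : a ∈ C.A) (hs : IsSelfAdjoint a) :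
    ∃ P ∈ C.A, IsStarProjection P ∧ P * a = a ∧
      ∀ T : K →L[ℂ] K, T * a = 0 → T * P = 0 := by
  set W : Submodule ℂ K :=
    (LinearMap.range ((a : K →L[ℂ] K) : K →ₗ[ℂ] K)).topologicalClosure with hW
  have : CompleteSpace W := (Submodule.isClosed_topologicalClosure _).completeSpace_coe
  set P := W.starProjection with hP
  have hinv : ∀ T : K →L[ℂ] K, T * a = a * T → ∀ v ∈ W, T v ∈ W := by
    intro T hT v hv
    refine map_mem_closure T.continuous hv ?_
    rintro w ⟨u, rfl⟩
    exact ⟨T u, (congrArg (fun S : K →L[ℂ] K => S u) hT).symm⟩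
  have hcomm : ∀ T : K →L[ℂ] K, T * a = a * T →
      star T * a = a * star T → P * T = T * P := by
    intro T h1 h2
    ext v
    change W.starProjection (T v) = T (W.starProjection v)
    refine Submodule.eq_starProjection_of_mem_orthogonal (hinv T h1 _
      (W.starProjection_apply_mem v)) ?_
    rw [Submodule.mem_orthogonal']
    intro w hw
    rw [← map_sub, ← ContinuousLinearMap.adjoint_inner_right, ← ContinuousLinearMap.star_eq_adjoint]
    exact Submodule.starProjection_inner_eq_zero v _ (hinv _ h2 w hw)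
  have hPM : P ∈ C.M := by
    refine C.mem_M_of_comm fun s hs' => hcomm s (hs' _ (C.hAM ha)).symm ?_
    have h := congrArg star (hs' _ (C.hAM ha))
    rwa [star_mul, star_mul, hs.star_eq] at h
  have hPA : P ∈ C.A := (C.hA P hPM).2 fun b hb =>
    hcomm b (C.A_comm hb ha) (C.A_comm (star_mem hb) ha)
  refine ⟨P, hPA, isStarProjection_starProjection, ?_, fun T hT => ?_⟩
  · ext v
    exact Submodule.starProjection_eq_self_iff.2 (Submodule.le_topologicalClosure _ ⟨v, rfl⟩)
  · ext v
    have hker : W ≤ LinearMap.ker ((T : K →L[ℂ] K) : K →ₗ[ℂ] K) := by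
      refine Submodule.topologicalClosure_minimal _ ?_ T.isClosed_ker
      rintro w ⟨u, rfl⟩
      exact congrArg (fun S : K →L[ℂ] K => S u) hT
    exact hker (W.starProjection_apply_mem v)

/-- The positive part of `f - t`. -/
def posAt (f : C(C.Spec, ℝ)) (t : ℝ) : C(C.Spec, ℝ) :=
  ⟨fun χ => max (f χ - t) 0, (f.continuous.sub continuous_const).max continuous_const⟩

/-- Spectral projections in `A`. -/
theorem exists_idem (f : C(C.Spec, ℝ)) (t : ℝ) : ∃ p : C(C.Spec, ℝ), p * p = p ∧
    ∀ χ, (t < f χ → p χ = 1) ∧ (f χ < t → p χ = 0) := by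
  obtain ⟨P, hPA, hsP, hPa, hann⟩ :=
    C.exists_range_proj (C.op_mem (C.posAt f t)) (C.op_sa _)
  have hop : C.op (C.re P) = P := C.op_re hPA hsP.isSelfAdjoint
  have hz : C.op (C.posAt (-f) (-t)) * C.op (C.posAt f t) = 0 := by
    rw [← map_mul, ← map_zero C.op]
    congr 1
    ext χ
    change max (-f χ - -t) 0 * max (f χ - t) 0 = 0
    rcases le_total (f χ) t with h | h
    · rw [max_eq_right (sub_nonpos.2 h), mul_zero]
    · rw [max_eq_right (by linarith : -f χ - -t ≤ 0), zero_mul]
  have e0 : C.re P * C.re P = C.re P :=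
    C.op_inj (by rw [map_mul, hop]; exact hsP.isIdempotentElem)
  have e1 : C.re P * C.posAt f t = C.posAt f t := C.op_inj (by rw [map_mul, hop]; exact hPa)
  have e2 : C.posAt (-f) (-t) * C.re P = 0 :=
    C.op_inj (by rw [map_mul, hop, map_zero]; exact hann _ hz)
  refine ⟨C.re P, e0, fun χ => ⟨fun h => ?_, fun h => ?_⟩⟩
  · have h1 : C.re P χ * max (f χ - t) 0 = max (f χ - t) 0 :=
      congrArg (fun F : C(C.Spec, ℝ) => F χ) e1
    rw [max_eq_left (sub_nonneg.2 h.le)] at h1
    exact mul_right_cancel₀ (sub_pos.2 h).ne' (h1.trans (one_mul _).symm)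
  · have h2 : max (-f χ - -t) 0 * C.re P χ = 0 :=
      congrArg (fun F : C(C.Spec, ℝ) => F χ) e2
    rw [max_eq_left (by linarith : (0 : ℝ) ≤ -f χ - -t)] at h2
    exact (mul_eq_zero.1 h2).resolve_left (by linarith)

/-- A projection of `A` that is one where `t < f` and zero where `f < t`. -/
def cutAt (f : C(C.Spec, ℝ)) (t : ℝ) : C(C.Spec, ℝ) := (C.exists_idem f t).choose

theorem cutAt_idem (f : C(C.Spec, ℝ)) (t : ℝ) : C.cutAt f t * C.cutAt f t = C.cutAt f t :=
  (C.exists_idem f t).choose_spec.1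

theorem le_of_cutAt_eq_one {f : C(C.Spec, ℝ)} {t : ℝ} {χ : C.Spec} (h : C.cutAt f t χ = 1) :
    t ≤ f χ := by
  by_contra hn
  rw [not_le] at hn
  have h0 : C.cutAt f t χ = 0 := ((C.exists_idem f t).choose_spec.2 χ).2 hn
  rw [h] at h0
  exact one_ne_zero h0

theorem le_of_cutAt_eq_zero {f : C(C.Spec, ℝ)} {t : ℝ} {χ : C.Spec} (h : C.cutAt f t χ = 0) :
    f χ ≤ t := by
  by_contra hn
  rw [not_le] at hn
  have h1 : C.cutAt f t χ = 1 := ((C.exists_idem f t).choose_spec.2 χ).1 hn
  rw [h] at h1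
  exact one_ne_zero h1.symm

theorem step_bound {x h : ℝ} (hh : 0 ≤ h) (hx : 0 ≤ x) (v : ℕ → ℝ)
    (hv : ∀ k, (v k = 0 ∧ x ≤ (k + 1 : ℝ) * h) ∨ (v k = 1 ∧ (k + 1 : ℝ) * h ≤ x)) (m : ℕ) :
    (∑ k ∈ Finset.range m, h * v k) ≤ x ∧
      min (m * h) (x - h) ≤ ∑ k ∈ Finset.range m, h * v k ∧
      (∑ k ∈ Finset.range m, h * v k) ≤ m * h := by
  induction m with
  | zero => simp [hx]
  | succ m ih =>
    obtain ⟨i1, i2, i3⟩ := ih
    rw [Finset.sum_range_succ]
    push_cast
    rcases hv m with ⟨h0, h1⟩ | ⟨h0, h1⟩ <;> rw [h0]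
    · refine ⟨by linarith, ?_, by linarith⟩
      rcases min_le_iff.1 i2 with h2 | h2 <;>
        exact le_trans (min_le_right _ _) (by linarith)
    · refine ⟨by linarith, ?_, by linarith⟩
      rcases min_le_iff.1 i2 with h2 | h2
      · exact le_trans (min_le_left _ _) (by linarith)
      · exact le_trans (min_le_right _ _) (by linarith)

/-- Real symbols are uniformly approximated by combinations of projections. -/
theorem exists_simple (f : C(C.Spec, ℝ)) {η : ℝ} (hη : 0 < η) :
    ∃ (n : ℕ) (w : Fin n → ℝ) (p : Fin n → C(C.Spec, ℝ)),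
      (∀ i, p i * p i = p i) ∧ ∀ χ, |f χ - ∑ i, w i * p i χ| ≤ η := by
  set L := ‖f‖ + 1 with hL
  have hfb : ∀ χ, -L ≤ f χ ∧ f χ ≤ L := fun χ => by
    have := f.norm_coe_le_norm χ
    rw [Real.norm_eq_abs, abs_le] at this
    constructor <;> linarith
  have hL0 : 0 < L := by rw [hL]; exact add_pos_of_nonneg_of_pos (norm_nonneg f) one_pos
  obtain ⟨N, hN⟩ := exists_nat_gt (2 * L / η)
  have hN0 : (0 : ℝ) < N := lt_of_le_of_lt (div_nonneg (by linarith) hη.le) hN
  set h := 2 * L / N with hh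
  have hh0 : 0 < h := div_pos (by linarith) hN0
  refine ⟨N + 1, Fin.cons (-L) (fun _ => h),
    Fin.cons 1 (fun k => C.cutAt f (-L + ((k : ℕ) + 1) * h)), fun i => ?_, fun χ => ?_⟩
  · refine Fin.cases (one_mul _) (fun k => ?_) i
    exact C.cutAt_idem _ _
  rw [Fin.sum_univ_succ]
  simp only [Fin.cons_zero, Fin.cons_succ, ContinuousMap.one_apply, mul_one]
  rw [Fin.sum_univ_eq_sum_range fun k : ℕ => h * C.cutAt f (-L + ((k : ℝ) + 1) * h) χ]
  obtain ⟨k1, k2, -⟩ := step_bound (x := f χ + L) hh0.le (by linarith [(hfb χ).1])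
    (fun k : ℕ => C.cutAt f (-L + ((k : ℝ) + 1) * h) χ) (fun k => by
      rcases idem_values (C.cutAt_idem f (-L + ((k : ℝ) + 1) * h)) χ with h0 | h0
      · exact Or.inl ⟨h0, by linarith [C.le_of_cutAt_eq_zero h0]⟩
      · exact Or.inr ⟨h0, by linarith [C.le_of_cutAt_eq_one h0]⟩) N
  have e : (N : ℝ) * h = 2 * L := by rw [hh]; field_simp
  have hhη : h ≤ η := by
    rw [div_lt_iff₀ hη] at hN
    rw [hh, div_le_iff₀ hN0]
    linarith
  rw [e] at k2
  rcases min_le_iff.1 k2 with h1 | h1 <;> rw [abs_le] <;>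
    constructor <;> linarith [(hfb χ).2]

/-- The imaginary part of the symbol. -/
def im (T : K →L[ℂ] K) : C(C.Spec, ℝ) :=
  ⟨fun χ => (C.fn T χ).im, Complex.continuous_im.comp (C.fn T).continuous⟩

theorem decomp {a : K →L[ℂ] K} (ha : a ∈ C.A) :
    a = C.op (C.re a) + Complex.I • C.op (C.im a) := by
  have h : C.fn a = C.cR (C.re a) + Complex.I • C.cR (C.im a) := by
    ext χ
    change C.fn a χ = ((C.fn a χ).re : ℂ) + Complex.I * ((C.fn a χ).im : ℂ)
    rw [mul_comm]
    exact (Complex.re_add_im _).symm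
  calc a = C.opC (C.fn a) := (C.opC_fn ha).symm
    _ = C.opC (C.cR (C.re a)) + C.opC (Complex.I • C.cR (C.im a)) := by rw [h]; exact C.opC_add _ _
    _ = C.op (C.re a) + Complex.I • C.op (C.im a) :=
      congrArg₂ (· + ·) (C.op_eq _).symm
        ((C.opC_smul Complex.I _).trans (congrArg (Complex.I • ·) (C.op_eq _).symm))

/-- The operators of real symbols are limits of combinations of projections. -/
theorem op_mem_closure_span (f : C(C.Spec, ℝ)) :
    C.op f ∈ closure (Submodule.span ℂ
      {T : K →L[ℂ] K | ∃ p : C(C.Spec, ℝ), p * p = p ∧ C.op p = T} : Set (K →L[ℂ] K)) := by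
  rw [Metric.mem_closure_iff]
  intro η hη
  obtain ⟨n, w, p, hp, happ⟩ := C.exists_simple f (half_pos hη)
  refine ⟨C.op (∑ i, w i • p i), ?_, ?_⟩
  · rw [map_sum]
    refine Submodule.sum_mem _ fun i _ => ?_
    rw [map_smul, ← Complex.coe_smul]
    exact Submodule.smul_mem _ _ (Submodule.subset_span ⟨p i, hp i, rfl⟩)
  · rw [dist_eq_norm, ← map_sub, C.norm_op]
    refine lt_of_le_of_lt ((ContinuousMap.norm_le _ (half_pos hη).le).2 fun χ => ?_) (half_lt_self hη)
    rw [ContinuousMap.sub_apply, ContinuousMap.sum_apply, Real.norm_eq_abs]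
    exact happ χ

/-- An operator commuting with the projections of `A` commutes with all of `A`. -/
theorem mem_A_of_comm {T : K →L[ℂ] K} (hT : T ∈ C.M)
    (h : ∀ p : C(C.Spec, ℝ), p * p = p → T * C.op p = C.op p * T) : T ∈ C.A := by
  have hreal : ∀ f : C(C.Spec, ℝ), T * C.op f = C.op f * T := by
    intro f
    have hcl : IsClosed {S : K →L[ℂ] K | T * S = S * T} :=
      isClosed_eq (continuous_const.mul continuous_id) (continuous_id.mul continuous_const)
    refine hcl.closure_subset_iff.2 ?_ (C.op_mem_closure_span f)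
    intro S hS
    induction hS using Submodule.span_induction with
    | mem S hS => obtain ⟨p, hp, rfl⟩ := hS; exact h p hp
    | zero => simp
    | add S S' _ _ h1 h2 =>
      change T * (S + S') = (S + S') * T
      rw [mul_add, add_mul, Set.mem_ofPred_eq.mp h1, Set.mem_ofPred_eq.mp h2]
    | smul c S _ h1 =>
      change T * (c • S) = (c • S) * T
      rw [mul_smul_comm, smul_mul_assoc, Set.mem_ofPred_eq.mp h1]
  refine (C.hA T hT).2 fun a ha => ?_
  have h1 : Commute T (C.op (C.re a) + Complex.I • C.op (C.im a)) :=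
    (show Commute T (C.op (C.re a)) from hreal _).add_right
      ((show Commute T (C.op (C.im a)) from hreal _).smul_right Complex.I)
  rw [← C.decomp ha] at h1
  exact h1.eq

end Ctx

end Vale.Agent.P078.Expected
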